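import Vale.Agent.P329.Runs.Window

/-!
P329: for a finite index set `ι`, colour sets modulo one number whose only effect is a translation
of `ι → Bool`, with left offsets divisible by a prescribed `m`.
-/

namespace Vale.Agent.P329.Runs

/-- The states. -/
abbrev St (ι : Type) := ι → Bool

/-- Translation. -/
def tr {ι : Type} (s t : St ι) : St ι := fun i => xor (s i) (t i)

/-- Colour sets on offsets in `[D, 2 D)`. -/
structure Gad (ι : Type) (m : ℕ) where
  /-- the modulus -/
  D : ℕ
  D_pos : 0 < D
  dvd : m ∣ D
  /-- the left offsets of a state -/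
  Lp : St ι → ℕ → Prop
  /-- the right offsets of a state -/
  Rp : St ι → ℕ → Prop
  /-- the translation of a length -/
  t : ℕ → St ι
  Lp_range : ∀ v l, Lp v l → D ≤ l ∧ l < 2 * D ∧ m ∣ l
  Rp_range : ∀ v r, Rp v r → D ≤ r ∧ r < 2 * D
  cover : ∀ n v, ∃ l r, Lp v l ∧ Rp (tr v (t n)) r ∧ (l + r) % D = n % D
  unique : ∀ n v w l r, Lp v l → Rp w r → (l + r) % D = n % D → w = tr v (t n)

/-- Pairwise coprime moduli of the form `20 k + 57`, prime to `m`. -/
theorem exists_moduli (m : ℕ) (hm : 0 < m) :
    ∀ r : ℕ, ∃ f : Fin r → ℕ, (∀ i, 2 ≤ f i ∧ Nat.Coprime (20 * f i + 57) m) ∧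
      ∀ i j, i ≠ j → Nat.Coprime (20 * f i + 57) (20 * f j + 57)
  | 0 => ⟨Fin.elim0, fun i => i.elim0, fun i => i.elim0⟩
  | r + 1 => by
    obtain ⟨f, hf, hff⟩ := exists_moduli m hm r
    obtain ⟨k, hk, hco⟩ := exists_coprime_modulus (m * ∏ i, (20 * f i + 57))
      (mul_pos hm (Finset.prod_pos fun i _ => by omega))
    have hkm : Nat.Coprime (20 * k + 57) m := hco.coprime_dvd_right (dvd_mul_right _ _)
    have hkf : ∀ i, Nat.Coprime (20 * k + 57) (20 * f i + 57) := fun i =>
      hco.coprime_dvd_right ((Finset.dvd_prod_of_mem (fun i => 20 * f i + 57)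
        (Finset.mem_univ i)).trans (dvd_mul_left _ _))
    refine ⟨Fin.cons k f, fun i => ?_, fun i j hij => ?_⟩
    · refine Fin.cases ⟨hk, hkm⟩ (fun i => ?_) i
      simpa using hf i
    · revert hij
      refine Fin.cases ?_ (fun i => ?_) i <;> refine Fin.cases ?_ (fun j => ?_) j <;> intro hij
      · exact absurd rfl hij
      · simpa using hkf j
      · simpa using (hkf i).symm
      · simpa using hff i j fun e => hij (by rw [e])

open Classical in
/-- The gadget exists. -/
theorem exists_gad (ι : Type) [Fintype ι] (m : ℕ) (hm : 0 < m) : Nonempty (Gad ι m) := by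
  set e := Fintype.equivFin ι
  obtain ⟨f, hf, hff⟩ := exists_moduli m hm (Fintype.card ι)
  let kk : ι → ℕ := fun i => f (e i)
  let d : ι → ℕ := fun i => 20 * kk i + 57
  have hk : ∀ i, 2 ≤ kk i := fun i => (hf _).1
  have hd : ∀ i, 0 < d i := fun i => by simp [d]
  set D := m * ∏ i, d i with hD
  have hD0 : 0 < D := mul_pos hm (Finset.prod_pos fun i _ => hd i)
  have hdD : ∀ i, d i ∣ D := fun i =>
    (Finset.dvd_prod_of_mem d (Finset.mem_univ i)).trans (dvd_mul_left _ _)
  refine ⟨{
    D := D
    D_pos := hD0
    dvd := dvd_mul_right _ _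
    Lp := fun v l => D ≤ l ∧ l < 2 * D ∧ m ∣ l ∧ ∀ i, l % d i ∈ offs (v i)
    Rp := fun v r => D ≤ r ∧ r < 2 * D ∧ ∀ i, sym (kk i) (r % d i) = some (v i)
    t := fun n i => bit (kk i) (n % d i)
    Lp_range := fun v l h => ⟨h.1, h.2.1, h.2.2.1⟩
    Rp_range := fun v r h => ⟨h.1, h.2.1⟩
    cover := ?_
    unique := ?_ }⟩
  · intro n v
    have hsel : ∀ i, ∃ l ∈ offs (v i), sym (kk i) (back (kk i) (n % d i) l) =
        some (xor (v i) (bit (kk i) (n % d i))) := fun i =>
      sym_exists (v i) (hk i) (Nat.mod_lt _ (hd i))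
    choose l0 hl0 hsym using hsel
    let mo : Option ι → ℕ := fun o => o.elim m d
    let re : Option ι → ℕ := fun o => o.elim 0 l0
    have hpair : (↑(Finset.univ : Finset (Option ι)) : Set (Option ι)).Pairwise
        (Function.onFun Nat.Coprime mo) := by
      intro a _ b _ hab
      change Nat.Coprime (mo a) (mo b)
      rcases a with _ | i <;> rcases b with _ | j
      · exact absurd rfl hab
      · exact ((hf _).2).symm
      · exact (hf _).2
      · exact hff _ _ fun h => hab (by rw [e.injective h])
    have hne : ∀ o ∈ (Finset.univ : Finset (Option ι)), mo o ≠ 0 := fun o _ => by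
      rcases o with _ | i
      · exact hm.ne'
      · exact (hd i).ne'
    obtain ⟨z, hz⟩ := Nat.chineseRemainderOfFinset re mo Finset.univ hne hpair
    set l := D + z % D with hl
    have hlD : l % D = z % D := by rw [hl, Nat.add_mod_left, Nat.mod_mod]
    have hlm : ∀ {q : ℕ}, q ∣ D → l % q = z % q := fun {q} hq => by
      rw [← Nat.mod_mod_of_dvd l hq, hlD, Nat.mod_mod_of_dvd z hq]
    have hlz : z % D < D := Nat.mod_lt _ hD0
    refine ⟨l, D + (n % D + 2 * D - l) % D, ⟨by omega, by omega, ?_, fun i => ?_⟩,
      ⟨by omega, by have := Nat.mod_lt (n % D + 2 * D - l) hD0; omega, fun i => ?_⟩, ?_⟩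
    · have h := hz none (Finset.mem_univ _)
      exact Nat.dvd_of_mod_eq_zero (by rw [hlm (dvd_mul_right _ _)]; simpa [mo, re, Nat.ModEq] using h)
    · have h : z % d i = l0 i % d i := hz (some i) (Finset.mem_univ _)
      rw [hlm (hdD i), h, Nat.mod_eq_of_lt (by
        have := offs_le (hl0 i); simp only [d]; omega)]
      exact hl0 i
    · have h : z % d i = l0 i % d i := hz (some i) (Finset.mem_univ _)
      have hli : l % d i = l0 i := by
        rw [hlm (hdD i), h, Nat.mod_eq_of_lt (by have := offs_le (hl0 i); simp only [d]; omega)]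
      have hsum : (D + (n % D + 2 * D - l) % D + l) % D = n % D := by
        rw [show D + (n % D + 2 * D - l) % D + l = (n % D + 2 * D - l) % D + l + D by ring,
          Nat.add_mod_right, Nat.mod_add_mod, show n % D + 2 * D - l + l = n % D + D + D by omega,
          Nat.add_mod_right, Nat.add_mod_right, Nat.mod_mod]
      have hback : (D + (n % D + 2 * D - l) % D) % d i = back (kk i) (n % d i) (l0 i) := by
        have h2 := congrArg (· % d i) hsum
        simp only [Nat.mod_mod_of_dvd _ (hdD i)] at h2
        rw [Nat.add_mod, hli] at h2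
        have ha : (D + (n % D + 2 * D - l) % D) % d i < d i := Nat.mod_lt _ (hd i)
        have hb : l0 i < d i := by have := offs_le (hl0 i); simp only [d]; omega
        generalize (D + (n % D + 2 * D - l) % D) % d i = a at h2 ha ⊢
        change a = (n % d i + d i - l0 i) % d i
        rw [← h2]
        by_cases hc : a + l0 i < d i
        · rw [Nat.mod_eq_of_lt hc, show a + l0 i + d i - l0 i = a + d i by omega,
            Nat.add_mod_right, Nat.mod_eq_of_lt ha]
        · rw [show a + l0 i = a + l0 i - d i + d i by omega, Nat.add_mod_right,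
            Nat.mod_eq_of_lt (show a + l0 i - d i < d i by omega),
            show a + l0 i - d i + d i - l0 i = a by omega, Nat.mod_eq_of_lt ha]
      rw [hback]
      exact hsym i
    · rw [show l + (D + (n % D + 2 * D - l) % D) = (n % D + 2 * D - l) % D + l + D by ring,
        Nat.add_mod_right, Nat.mod_add_mod, show n % D + 2 * D - l + l = n % D + D + D by omega,
        Nat.add_mod_right, Nat.add_mod_right, Nat.mod_mod]
  · rintro n v w l r ⟨-, -, -, hl⟩ ⟨-, -, hr⟩ hlr
    funext i
    have h2 := congrArg (· % d i) hlr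
    simp only [Nat.mod_mod_of_dvd _ (hdD i)] at h2
    have ha : r % d i < d i := Nat.mod_lt _ (hd i)
    have hb : l % d i < d i := Nat.mod_lt _ (hd i)
    have hj : sym (kk i) (back (kk i) (n % d i) (l % d i)) = some (w i) := by
      have he : r % d i = (n % d i + d i - l % d i) % d i := by
        rw [← h2, Nat.add_mod]
        generalize r % d i = a at ha ⊢
        generalize l % d i = c at hb ⊢
        by_cases hc : c + a < d i
        · rw [Nat.mod_eq_of_lt hc, show c + a + d i - c = a + d i by omega, Nat.add_mod_right,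
            Nat.mod_eq_of_lt ha]
        · rw [show c + a = c + a - d i + d i by omega, Nat.add_mod_right,
            Nat.mod_eq_of_lt (show c + a - d i < d i by omega),
            show c + a - d i + d i - c = a by omega, Nat.mod_eq_of_lt ha]
      have := hr i
      rw [he] at this
      exact this
    exact sym_unique (hk i) (Nat.mod_lt _ (hd i)) (hl i) hj

end Vale.Agent.P329.Runs
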