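import Vale.Agent.P329.RootIncreasing
import Vale.Agent.P329.Runs.Gadget

/-!
P329: one star computes a product over separated runs in any finite monoid.
-/

namespace Vale.Agent.P329.Runs

open RootInc
open scoped Classical

variable {α β : Type}

/-- The runs of a list, each followed by a separator. -/
def body (l : List (α × ℕ × β)) : List (α ⊕ β) :=
  l.flatMap fun p => List.replicate p.2.1 (Sum.inl p.1) ++ [Sum.inr p.2.2]

/-- The word of a first separator and a list of runs. -/
def enc (x : β) (l : List (α × ℕ × β)) : List (α ⊕ β) := Sum.inr x :: body l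

theorem body_cons (p : α × ℕ × β) (l : List (α × ℕ × β)) :
    body (p :: l) = List.replicate p.2.1 (Sum.inl p.1) ++ Sum.inr p.2.2 :: body l := by
  simp [body]

theorem run_none {a b : α} {x y : β} : ∀ {r k : ℕ} {X Y : List (α ⊕ β)},
    List.replicate r (Sum.inl a) ++ Sum.inr x :: X =
        List.replicate k (Sum.inl b) ++ Sum.inr y :: Y →
      r = k ∧ X = Y ∧ x = y ∧ (0 < r → a = b) := by
  intro r
  induction r with
  | zero =>
    intro k X Y h
    rcases k with _ | k
    · simp only [List.replicate_zero, List.nil_append, List.cons.injEq, Sum.inr.injEq] at h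
      exact ⟨rfl, h.2, h.1, fun h0 => absurd h0 (lt_irrefl 0)⟩
    · simp [List.replicate_succ] at h
  | succ r ih =>
    intro k X Y h
    rcases k with _ | k
    · simp [List.replicate_succ] at h
    · simp only [List.replicate_succ, List.cons_append, List.cons.injEq, Sum.inl.injEq] at h
      obtain ⟨h1, h2, h3, -⟩ := ih h.2
      exact ⟨by omega, h2, h3, fun _ => h.1⟩

theorem run_some {a b : α} {y : β} : ∀ {D k : ℕ} {X Y : List (α ⊕ β)},
    List.replicate D (Sum.inl a) ++ X = List.replicate k (Sum.inl b) ++ Sum.inr y :: Y →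
      D ≤ k ∧ X = List.replicate (k - D) (Sum.inl b) ++ Sum.inr y :: Y ∧ (0 < D → a = b) := by
  intro D
  induction D with
  | zero => intro k X Y h; exact ⟨Nat.zero_le _, by simpa using h, fun h0 => absurd h0 (lt_irrefl 0)⟩
  | succ D ih =>
    intro k X Y h
    rcases k with _ | k
    · simp [List.replicate_succ] at h
    · simp only [List.replicate_succ, List.cons_append, List.cons.injEq, Sum.inl.injEq] at h
      obtain ⟨h1, h2, -⟩ := ih h.2
      exact ⟨by omega, by rw [Nat.succ_sub_succ]; exact h2, fun _ => h.1⟩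

variable {G : Type} [Monoid G]

/-- The action of the group on the states. -/
def act (s : St G) (h : G) : St G := fun x => s (h * x)

theorem act_act (s : St G) (g h : G) : act (act s g) h = act s (g * h) := by
  funext x; simp [act, mul_assoc]

theorem act_tr (s t : St G) (h : G) : act (tr s t) h = tr (act s h) (act t h) := rfl

variable {m : ℕ}

section star

variable (gd : Gad G m) (F : α → ℕ → β → G)

/-- The effect of one run. -/
def step (s : St G) (p : α × ℕ × β) : St G :=
  act (tr s (gd.t p.2.1)) (F p.1 p.2.1 p.2.2)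

/-- The value of a list of runs. -/
def val (l : List (α × ℕ × β)) : G := (l.map fun p => F p.1 p.2.1 p.2.2).prod

theorem exists_fold : ∀ l : List (α × ℕ × β), ∃ c : St G, ∀ s,
    l.foldl (step gd F) s = tr (act s (val F l)) c
  | [] => ⟨fun _ => false, fun s => by funext x; simp [val, tr, act]⟩
  | p :: l => by
    obtain ⟨c, hc⟩ := exists_fold l
    refine ⟨tr (act (act (gd.t p.2.1) (F p.1 p.2.1 p.2.2)) (val F l)) c, fun s => ?_⟩
    have hv : val F (p :: l) = F p.1 p.2.1 p.2.2 * val F l := by simp [val]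
    rw [List.foldl_cons, hc, step, hv, act_tr, act_tr, act_act s]
    funext x
    simp [tr]

theorem eq_of_fold {H H' : G} {c c' : St G}
    (h : ∀ s, tr (act s H) c = tr (act s H') c') : H = H' := by
  have hc : c = c' := by
    funext x
    simpa [tr, act] using congrFun (h fun _ => false) x
  subst hc
  have h2 := congrFun (h fun x => decide (x = H)) 1
  simp only [tr, act, mul_one, decide_true] at h2
  by_contra hne
  rw [decide_eq_false (Ne.symm hne)] at h2
  cases hcx : c 1 <;> simp [hcx] at h2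

/-- The pieces inside a run and across a separator. -/
def pieces : Language (α ⊕ β) :=
  {w | (∃ a, w = List.replicate gd.D (Sum.inl a)) ∨ ∃ a b x r l v, gd.Rp v r ∧
    gd.Lp (act v (F a r x)) l ∧
      w = List.replicate r (Sum.inl a) ++ Sum.inr x :: List.replicate l (Sum.inl b)}

/-- The first piece of a state. -/
def starts (s : St G) : Language (α ⊕ β) :=
  {w | ∃ a x l, gd.Lp s l ∧ w = Sum.inr x :: List.replicate l (Sum.inl a)}

/-- The last piece of a state. -/
def ends (s : St G) : Language (α ⊕ β) :=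
  {w | ∃ a x r v, gd.Rp v r ∧ act v (F a r x) = s ∧
    w = List.replicate r (Sum.inl a) ++ [Sum.inr x]}

variable {gd F}

theorem mod_of_chain {n l r c : ℕ} (hc : c % gd.D = l % gd.D) (hn : n = c + r) :
    (l + r) % gd.D = n % gd.D := by
  rw [hn, Nat.add_mod, ← hc, ← Nat.add_mod]

theorem F_eq (hF : ∀ a n n' x, n % m = n' % m → F a n x = F a n' x) {a : α} {x : β} {n l r : ℕ}
    (hl : m ∣ l) (h : (l + r) % gd.D = n % gd.D) : F a r x = F a n x := by
  refine hF a r n x ?_
  have h2 := congrArg (· % m) h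
  simp only [Nat.mod_mod_of_dvd _ gd.dvd] at h2
  rw [← h2, Nat.add_mod, Nat.dvd_iff_mod_eq_zero.1 hl, Nat.zero_add, Nat.mod_mod]

/-- Every list of long runs is accepted with the state it produces. -/
theorem exists_parse (hF : ∀ a n n' x, n % m = n' % m → F a n x = F a n' x) :
    ∀ (l : List (α × ℕ × β)) (p : α × ℕ × β) (s : St G), (∀ q ∈ p :: l, 4 * gd.D ≤ q.2.1) →
      ∃ (l0 : ℕ) (ps : List (List (α ⊕ β))) (e : List (α ⊕ β)),
        gd.Lp s l0 ∧ (∀ q ∈ ps, q ∈ pieces gd F) ∧ e ∈ ends gd F ((p :: l).foldl (step gd F) s) ∧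
          body (p :: l) = List.replicate l0 (Sum.inl p.1) ++ (ps.flatten ++ e) := by
  intro l
  induction l with
  | nil =>
    rintro ⟨a, n, x⟩ s hN
    obtain ⟨l0, r, hl, hr, hlr⟩ := gd.cover n s
    have hn : 4 * gd.D ≤ n := hN (a, n, x) (by simp)
    obtain ⟨h1, h2, h3⟩ := gd.Lp_range _ _ hl
    obtain ⟨h4, h5⟩ := gd.Rp_range _ _ hr
    obtain ⟨j, hj⟩ := (Nat.modEq_iff_dvd' (show l0 + r ≤ n by omega)).1 hlr
    refine ⟨l0, List.replicate j (List.replicate gd.D (Sum.inl a)),
      List.replicate r (Sum.inl a) ++ [Sum.inr x], hl, fun q hq => Or.inl ⟨a, (List.mem_replicate.1 hq).2⟩,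
      ⟨a, x, r, _, hr, ?_, rfl⟩, ?_⟩
    · simp only [List.foldl_cons, List.foldl_nil, step]
      rw [F_eq hF h3 hlr]
    · rw [body_cons, List.flatten_replicate_replicate]
      simp only [body, List.flatMap_nil]
      rw [← List.append_assoc, ← List.append_assoc, List.replicate_append_replicate,
        List.replicate_append_replicate]
      congr 2
      rw [mul_comm] at hj
      omega
  | cons p' l ih =>
    rintro ⟨a, n, x⟩ s hN
    obtain ⟨l0, r, hl, hr, hlr⟩ := gd.cover n s
    have hn : 4 * gd.D ≤ n := hN (a, n, x) (by simp)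
    obtain ⟨h1, h2, h3⟩ := gd.Lp_range _ _ hl
    obtain ⟨h4, h5⟩ := gd.Rp_range _ _ hr
    obtain ⟨j, hj⟩ := (Nat.modEq_iff_dvd' (show l0 + r ≤ n by omega)).1 hlr
    obtain ⟨l1, ps, e, hl1, hps, he, hbody⟩ := ih p' (act (tr s (gd.t n)) (F a n x))
      fun q hq => hN q (List.mem_cons_of_mem _ hq)
    refine ⟨l0, List.replicate j (List.replicate gd.D (Sum.inl a)) ++
      (List.replicate r (Sum.inl a) ++ Sum.inr x :: List.replicate l1 (Sum.inl p'.1)) :: ps, e, hl,
      fun q hq => ?_, ?_, ?_⟩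
    · rcases List.mem_append.1 hq with hq | hq
      · exact Or.inl ⟨a, (List.mem_replicate.1 hq).2⟩
      rcases List.mem_cons.1 hq with rfl | hq
      · refine Or.inr ⟨a, p'.1, x, r, l1, _, hr, ?_, rfl⟩
        rw [F_eq hF h3 hlr]
        exact hl1
      · exact hps q hq
    · simpa only [List.foldl_cons, step] using he
    · rw [body_cons, hbody, List.flatten_append, List.flatten_cons,
        List.flatten_replicate_replicate]
      simp only [List.append_assoc, List.cons_append]
      rw [← List.append_assoc (List.replicate l0 _), List.replicate_append_replicate,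
        ← List.append_assoc (List.replicate (l0 + j * gd.D) _), List.replicate_append_replicate]
      congr 2
      rw [mul_comm] at hj
      omega

/-- Every parse of a list of long runs gives the state it produces. -/
theorem parse_sound (hF : ∀ a n n' x, n % m = n' % m → F a n x = F a n' x) :
    ∀ (ps : List (List (α ⊕ β))), (∀ q ∈ ps, q ∈ pieces gd F) →
      ∀ (a : α) (x : β) (n c l0 : ℕ) (l : List (α × ℕ × β)) (v s' : St G) (e : List (α ⊕ β)),
        (∀ q ∈ l, 4 * gd.D ≤ q.2.1) → gd.Lp v l0 → c ≤ n → c % gd.D = l0 % gd.D →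
        e ∈ ends gd F s' →
        ps.flatten ++ e = List.replicate (n - c) (Sum.inl a) ++ Sum.inr x :: body l →
        ((a, n, x) :: l).foldl (step gd F) v = s' := by
  intro ps
  induction ps with
  | nil =>
    intro _ a x n c l0 l v s' e _ hl hcn hc he h
    obtain ⟨a', x', r, w, hr, rfl, rfl⟩ := he
    rw [List.flatten_nil, List.nil_append] at h
    obtain ⟨hrn, hX, rfl, ha⟩ := run_none h
    obtain ⟨h4, -⟩ := gd.Rp_range _ _ hr
    have hD := gd.D_pos
    obtain rfl := ha (by omega)
    have hl0 : l = [] := by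
      rcases l with _ | ⟨q, l⟩
      · rfl
      · rw [body_cons] at hX; simp at hX
    subst hl0
    have hlr : (l0 + r) % gd.D = n % gd.D := mod_of_chain hc (by omega)
    rw [List.foldl_cons, List.foldl_nil, step, gd.unique n v w l0 r hl hr hlr,
      F_eq hF (gd.Lp_range _ _ hl).2.2 hlr]
  | cons q ps ih =>
    intro hps a x n c l0 l v s' e hN hl hcn hc he h
    have hq := hps q (by simp)
    have hps' : ∀ q ∈ ps, q ∈ pieces gd F := fun q hq => hps q (by simp [hq])
    have hD := gd.D_pos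
    rw [List.flatten_cons, List.append_assoc] at h
    rcases hq with ⟨a', rfl⟩ | ⟨a', b, x', r, l1, w, hr, hl1, rfl⟩
    · obtain ⟨hle, hX, -⟩ := run_some h
      refine ih hps' a x n (c + gd.D) l0 l v s' e hN hl (by omega) ?_ he ?_
      · rw [Nat.add_mod_right, hc]
      · rw [hX, show n - c - gd.D = n - (c + gd.D) by omega]
    · simp only [List.append_assoc, List.cons_append] at h
      obtain ⟨hrn, hX, rfl, ha⟩ := run_none h
      obtain ⟨h4, -⟩ := gd.Rp_range _ _ hr
      obtain rfl := ha (by omega)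
      obtain ⟨h1, h2, -⟩ := gd.Lp_range _ _ hl1
      rcases l with _ | ⟨⟨a2, n2, x2⟩, l⟩
      · exfalso
        have := congrArg List.length hX
        simp [body] at this
        omega
      rw [body_cons] at hX
      obtain ⟨hle, hX', hb⟩ := run_some hX
      obtain rfl := hb (by omega)
      have hlr : (l0 + r) % gd.D = n % gd.D := mod_of_chain hc (by omega)
      have hw := gd.unique n v w l0 r hl hr hlr
      have := ih hps' b x2 n2 l1 l1 l _ s' e (fun q hq => hN q (by simp [hq])) hl1 hle rfl he hX'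
      rw [List.foldl_cons, step, ← hw, ← F_eq hF (gd.Lp_range _ _ hl).2.2 hlr]
      exact this

theorem mem_parse_iff (hF : ∀ a n n' x, n % m = n' % m → F a n x = F a n' x) {l : List (α × ℕ × β)} {x : β}
    (hN : ∀ q ∈ l, 4 * gd.D ≤ q.2.1) (s s' : St G) :
    enc x l ∈ starts gd s * KStar.kstar (pieces gd F) * ends gd F s' ↔
      l ≠ [] ∧ l.foldl (step gd F) s = s' := by
  simp only [Language.mem_mul, Language.mem_kstar]
  constructor
  · rintro ⟨_, ⟨_, ⟨a', x', l0, hl0, rfl⟩, _, ⟨ps, rfl, hps⟩, rfl⟩, e, he, h⟩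
    obtain ⟨h1, h2, -⟩ := gd.Lp_range _ _ hl0
    have hD := gd.D_pos
    simp only [enc, List.cons_append, List.cons.injEq, List.append_assoc] at h
    replace h := h.2
    rcases l with _ | ⟨⟨a, n, x2⟩, l⟩
    · exfalso
      have := congrArg List.length h
      simp [body] at this
      omega
    rw [body_cons] at h
    obtain ⟨hle, hX, -⟩ := run_some h
    exact ⟨by simp, parse_sound hF ps hps a x2 n l0 l0 l s s' e
      (fun q hq => hN q (by simp [hq])) hl0 hle rfl he hX⟩
  · rintro ⟨hne, rfl⟩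
    rcases l with _ | ⟨p, l⟩
    · exact absurd rfl hne
    obtain ⟨l0, ps, e, hl0, hps, he, hb⟩ := exists_parse hF l p s hN
    refine ⟨Sum.inr x :: List.replicate l0 (Sum.inl p.1) ++ ps.flatten,
      ⟨_, ⟨p.1, x, l0, hl0, rfl⟩, _, ⟨ps, rfl, hps⟩, rfl⟩, e, he, ?_⟩
    rw [enc, hb]
    simp

end star

section height

variable [Fintype α] [Fintype β]

/-- A word. -/
theorem hle_word : ∀ (w : List (α ⊕ β)) (n : ℕ), HeightLE ({w} : Language (α ⊕ β)) n
  | [], n => hle_congr (hle_one n) fun v => by simp [Language.mem_one]; rfl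
  | a :: w, n => hle_congr (hle_mul (hle_char a n) (hle_word w n)) fun v => by
      simp only [Language.mem_mul]
      constructor
      · rintro ⟨x, rfl, y, rfl, rfl⟩; rfl
      · rintro rfl; exact ⟨[a], rfl, w, rfl, rfl⟩

/-- A language of bounded words. -/
theorem hle_bounded (L : Language (α ⊕ β)) (B : ℕ) (hB : ∀ w ∈ L, w.length ≤ B) (n : ℕ) :
    HeightLE L n := by
  have hfin : Set.Finite {w | w ∈ L} := (List.finite_length_le (α ⊕ β) B).subset hB
  have : Fintype {w // w ∈ L} := hfin.fintype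
  refine hle_congr (hle_iUnion (fun w : {w // w ∈ L} =>
    ({(w : List (α ⊕ β))} : Language (α ⊕ β))) fun w => hle_word _ n) fun v => ?_
  constructor
  · rintro ⟨⟨w, hw⟩, rfl⟩; exact hw
  · exact fun hv => ⟨⟨v, hv⟩, rfl⟩

/-- Long runs between single separators. -/
def sparse (α β : Type) (N : ℕ) : Language (α ⊕ β) :=
  {w | ∃ (x : β) (l : List (α × ℕ × β)), (∀ q ∈ l, N ≤ q.2.1) ∧ w = enc x l}

theorem hle_sparse (N : ℕ) : HeightLE (sparse α β N) 1 := by
  let K : Language (α ⊕ β) :=
    {w | ∃ a n x, N ≤ n ∧ w = List.replicate n (Sum.inl a) ++ [Sum.inr x]}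
  have hK : HeightLE K 0 := by
    refine hle_congr (hle_mul (hle_iUnion (fun a : α =>
      ({List.replicate N (Sum.inl a)} : Language (α ⊕ β)) * allWords (fun z => z = Sum.inl a))
      fun a => hle_mul (hle_word _ 0) (hle_all _))
      (hle_iUnion (fun x : β => ({[Sum.inr x]} : Language (α ⊕ β))) fun x => hle_word _ 0))
      fun w => ?_
    simp only [Language.mem_mul, K]
    constructor
    · rintro ⟨_, ⟨a, hu⟩, _, ⟨x, rfl⟩, rfl⟩
      obtain ⟨_, rfl, v, hv, rfl⟩ := hu
      exact ⟨a, N + v.length, x, Nat.le_add_right _ _, by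
        rw [List.eq_replicate_of_mem hv, List.replicate_append_replicate]
        simp⟩
    · rintro ⟨a, n, x, hn, rfl⟩
      refine ⟨_, ⟨a, _, rfl, List.replicate (n - N) (Sum.inl a),
        fun z hz => (List.mem_replicate.1 hz).2, rfl⟩, _, ⟨x, rfl⟩, ?_⟩
      rw [List.replicate_append_replicate, show N + (n - N) = n by omega]
  refine hle_congr (hle_mul (hle_iUnion (fun x : β => ({[Sum.inr x]} : Language (α ⊕ β)))
    fun x => hle_word _ 1) (hle_star hK)) fun w => Language.mem_mul.trans ?_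
  simp only [Language.mem_kstar]
  constructor
  · rintro ⟨_, ⟨x, rfl⟩, _, ⟨ps, rfl, hps⟩, rfl⟩
    suffices ∃ l : List (α × ℕ × β), (∀ q ∈ l, N ≤ q.2.1) ∧ ps.flatten = body l by
      obtain ⟨l, h1, h2⟩ := this
      exact ⟨x, l, h1, by simp [enc, h2]⟩
    induction ps with
    | nil => exact ⟨[], by simp, by simp [body]⟩
    | cons q ps ih =>
      obtain ⟨a, n, y, hn, rfl⟩ := hps q (by simp)
      obtain ⟨l, h1, h2⟩ := ih fun z hz => hps z (by simp [hz])
      exact ⟨(a, n, y) :: l, fun z hz => by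
        rcases List.mem_cons.1 hz with rfl | hz
        · exact hn
        · exact h1 z hz, by simp [body_cons, h2]⟩
  · rintro ⟨x, l, hl, rfl⟩
    refine ⟨[Sum.inr x], ⟨x, rfl⟩, body l,
      ⟨l.map fun p => List.replicate p.2.1 (Sum.inl p.1) ++ [Sum.inr p.2.2], ?_, ?_⟩, rfl⟩
    · simp [body, List.flatMap_def]
    · intro q hq
      obtain ⟨p, hp, rfl⟩ := List.mem_map.1 hq
      exact ⟨p.1, p.2.1, p.2.2, hl p hp, rfl⟩

/-- The products over long separated runs have height at most one. -/
theorem exists_hle_runs [Fintype G] (m : ℕ) (hm : 0 < m) (F : α → ℕ → β → G)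
    (hF : ∀ a n n' x, n % m = n' % m → F a n x = F a n' x) :
    ∃ N₀ : ℕ, ∀ N, N₀ ≤ N → ∀ T : β → Set G, HeightLE ({w | ∃ (x : β) (l : List (α × ℕ × β)),
      (∀ q ∈ l, N ≤ q.2.1) ∧ w = enc x l ∧
      (l.map fun p => F p.1 p.2.1 p.2.2).prod ∈ T x} : Language (α ⊕ β)) 1 := by
  obtain ⟨gd⟩ := exists_gad G m hm
  refine ⟨4 * gd.D, fun N hN₀ T => ?_⟩
  have hS : ∀ s, HeightLE (starts gd s : Language (α ⊕ β)) 0 := fun s => by
    refine hle_bounded _ (1 + 2 * gd.D) (fun w hw => ?_) 0
    obtain ⟨a, x, l, hl, e⟩ := hw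
    have := (gd.Lp_range _ _ hl).2.1
    simp [e]; omega
  have hE : ∀ s, HeightLE (ends gd F s) 0 := fun s => by
    refine hle_bounded _ (1 + 2 * gd.D) (fun w hw => ?_) 0
    obtain ⟨a, x, r, v, hr, -, e⟩ := hw
    have := (gd.Rp_range _ _ hr).2
    simp [e]; omega
  have hP : HeightLE (pieces gd F) 0 := by
    refine hle_bounded _ (1 + 4 * gd.D) (fun w hw => ?_) 0
    rcases hw with ⟨a, e⟩ | ⟨a, b, x, r, l, v, hr, hl, e⟩
    · simp [e]; omega
    · have := (gd.Rp_range _ _ hr).2
      have := (gd.Lp_range _ _ hl).2.1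
      simp [e]; omega
  let W : St G → St G → Language (α ⊕ β) := fun s s' =>
    starts gd s * KStar.kstar (pieces gd F) * ends gd F s'
  have hW : ∀ s s', HeightLE (W s s') 1 := fun s s' =>
    hle_mul (hle_mul (hle_mono (hS s) (by omega)) (hle_star hP)) (hle_mono (hE s') (by omega))
  have htop : HeightLE ((0 : Language (α ⊕ β))ᶜ) 1 := hle_compl (hle_zero 1)
  let H0 : β → Language (α ⊕ β) := fun x => {[Sum.inr x]} * (0 : Language (α ⊕ β))ᶜ
  let I : G × St G → Language (α ⊕ β) := fun q => {w | ∀ s, w ∈ W s (tr (act s q.1) q.2)}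
  let U : {q : β × G × St G // q.2.1 ∈ T q.1} → Language (α ⊕ β) := fun q =>
    ((H0 q.1.1)ᶜ + (I q.1.2)ᶜ)ᶜ
  have hU : ∀ q, HeightLE (U q) 1 := fun q =>
    hle_compl (hle_add (hle_compl (hle_mul (hle_word _ 1) htop))
      (hle_compl (show HeightLE (I q.1.2) 1 from hle_iInter _ fun s => hW _ _)))
  let Z : Language (α ⊕ β) :=
    {w | ∃ x : {x : β // (1 : G) ∈ T x}, w ∈ ({[Sum.inr x.1]} : Language (α ⊕ β))}
  have hZ : HeightLE Z 1 := hle_iUnion _ fun x => hle_word _ 1
  have hmem : ∀ q w, w ∈ U q ↔ w ∈ H0 q.1.1 ∧ ∀ s, w ∈ W s (tr (act s q.1.2.1) q.1.2.2) := by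
    intro q w
    change ¬ (¬ w ∈ H0 q.1.1 ∨ ¬ ∀ s, w ∈ W s (tr (act s q.1.2.1) q.1.2.2)) ↔ _
    rw [not_or, not_not, not_not]
  have hfirst : ∀ (x y : β) (l : List (α × ℕ × β)), enc x l ∈ H0 y ↔ x = y := by
    intro x y l
    simp only [H0, Language.mem_mul]
    constructor
    · rintro ⟨_, rfl, v, -, h⟩
      simp only [enc, List.cons_append, List.nil_append, List.cons.injEq, Sum.inr.injEq] at h
      exact h.1.symm
    · rintro rfl
      exact ⟨_, rfl, body l, Language.notMem_zero _, rfl⟩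
  have hin := hle_compl (hle_add (hle_compl (hle_sparse (α := α) (β := β) N))
    (hle_compl (hle_iUnion U hU)))
  refine hle_congr (hle_add hZ hin) fun w => ?_
  change (w ∈ Z ∨ ¬ (¬ (w ∈ sparse α β N) ∨ ¬ ∃ q, w ∈ U q)) ↔
    ∃ (x : β) (l : List (α × ℕ × β)), _
  rw [not_or, not_not, not_not]
  constructor
  · rintro (⟨⟨x, hx⟩, h⟩ | ⟨⟨x, l, hl, rfl⟩, ⟨⟨⟨y, H, c⟩, hH⟩, hq⟩⟩)
    · obtain rfl : w = [Sum.inr x] := h
      exact ⟨x, [], by simp, by simp [enc, body], by simpa using hx⟩
    · obtain ⟨h0, hq⟩ := (hmem _ _).1 hq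
      obtain rfl := (hfirst _ _ _).1 h0
      refine ⟨x, l, hl, rfl, ?_⟩
      have hl' : ∀ q ∈ l, 4 * gd.D ≤ q.2.1 := fun q hq' => hN₀.trans (hl q hq')
      obtain ⟨c', hc'⟩ := exists_fold gd F l
      have : H = val F l := eq_of_fold fun s => by
        rw [← hc' s]
        exact ((mem_parse_iff hF hl' s _).1 (hq s)).2.symm
      subst this
      exact hH
  · rintro ⟨x, l, hl, rfl, hT⟩
    by_cases hne : l = []
    · subst hne
      left
      simp only [List.map_nil, List.prod_nil] at hT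
      exact ⟨⟨x, hT⟩, rfl⟩
    · right
      obtain ⟨c, hc⟩ := exists_fold gd F l
      have hl' : ∀ q ∈ l, 4 * gd.D ≤ q.2.1 := fun q hq' => hN₀.trans (hl q hq')
      exact ⟨⟨x, l, hl, rfl⟩, ⟨(x, val F l, c), hT⟩, (hmem _ _).2
        ⟨(hfirst _ _ _).2 rfl, fun s => (mem_parse_iff hF hl' s _).2 ⟨hne, hc s⟩⟩⟩

end height

end Vale.Agent.P329.Runs
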