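import Mathlib

/-!
P329: an infinite sequence of two-colour families with moduli `20 k + 57`.

The left offsets of colour `i` are the members of `offs i`; the right offsets are the positions of
the string `M ^ k C` carrying a colour.  For every residue `n` and every `i` all the coloured
positions `n - l` with `l` in `offs i` have one colour, `i xor b n`, and there is at least one.
-/

namespace Vale.Agent.P329.Runs

/-- The left offsets of a colour: the two parities of a translated cube. -/
def offs : Bool → List ℕ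
  | false => [0, 7, 11, 16]
  | true => [1, 6, 10, 17]

theorem offs_le {i : Bool} {l : ℕ} (h : l ∈ offs i) : l ≤ 17 := by
  cases i <;> simp [offs] at h <;> omega

/-- The periodic part: `0`, `1` are colours, `2` is a blank. -/
def motifM : List ℕ := [0,1,0,1,0,2,2,2,2,2,1,0,1,0,1,2,2,2,2,2]

/-- The core. -/
def motifC : List ℕ :=
  [0,2,2,2,0,2,1,2,2,2,2,2,0,2,1,2,2,2,1,2,2,2,2,2,0,1,0,1,2,2,2,2,2,0,2,2,2,0,2,1,2,2,2,2,2,
    0,2,1,2,2,2,1,2,2,2,2,2]

/-- A cell as an optional colour. -/
def cell (c : ℕ) : Option Bool := if c = 0 then some false else if c = 1 then some true else none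

/-- The string `M ^ k C`. -/
def sym (k p : ℕ) : Option Bool :=
  if p < 20 * k then cell (motifM.getD (p % 20) 2) else cell (motifC.getD (p - 20 * k) 2)

/-- The position of `n - l` modulo the length of the string. -/
def back (k n l : ℕ) : ℕ := (n + (20 * k + 57) - l) % (20 * k + 57)

/-- A residue with the same window in the string for `k = 2`. -/
def fold2 (k n : ℕ) : ℕ :=
  if n < 17 then n else if n < 20 * k then 17 + (n - 17) % 20 else n - 20 * (k - 2)

theorem fold2_lt {k n : ℕ} (hk : 2 ≤ k) (hn : n < 20 * k + 57) : fold2 k n < 97 := by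
  unfold fold2
  split_ifs <;> omega

theorem sym_back {k n l : ℕ} (hk : 2 ≤ k) (hn : n < 20 * k + 57) (hl : l ≤ 17) :
    sym k (back k n l) = sym 2 (back 2 (fold2 k n) l) := by
  have e : ∀ j m : ℕ, m < 20 * j + 57 →
      back j m l = if l ≤ m then m - l else m + (20 * j + 57) - l := by
    intro j m hm
    unfold back
    split_ifs with h
    · rw [show m + (20 * j + 57) - l = m - l + (20 * j + 57) by omega, Nat.add_mod_right,
        Nat.mod_eq_of_lt (by omega)]
    · exact Nat.mod_eq_of_lt (by omega)
  rw [e k n hn, e 2 (fold2 k n) (fold2_lt hk hn)]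
  unfold fold2 sym
  split_ifs <;> first
    | (exfalso; omega)
    | (congr 2 <;> omega)

/-- The translation at a residue. -/
def bit2 (n : ℕ) : Bool :=
  decide (some true ∈ (offs false).map fun l => sym 2 (back 2 n l))

/-- The translation. -/
def bit (k n : ℕ) : Bool := bit2 (fold2 k n)

/-- The check at one residue of the string with `k = 2`. -/
def okAt (i : Bool) (n : ℕ) : Bool :=
  ((offs i).all fun l => decide (sym 2 (back 2 n l) = none ∨
    sym 2 (back 2 n l) = some (xor i (bit2 n)))) &&
    ((offs i).any fun l => decide (sym 2 (back 2 n l) = some (xor i (bit2 n))))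

theorem okAt_all : ∀ n < 97, ∀ i : Bool, okAt i n = true := by decide +kernel

/-- Exclusivity: a coloured position `n - l` has the colour `i xor b n`. -/
theorem sym_unique {k n l : ℕ} {i j : Bool} (hk : 2 ≤ k) (hn : n < 20 * k + 57)
    (hl : l ∈ offs i) (hj : sym k (back k n l) = some j) : j = xor i (bit k n) := by
  have h := okAt_all _ (fold2_lt hk hn) i
  simp only [okAt, Bool.and_eq_true, List.all_eq_true, decide_eq_true_eq] at h
  rw [sym_back hk hn (offs_le hl)] at hj
  rcases h.1 l hl with e | e
  · rw [e] at hj; exact absurd hj (by simp)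
  · rw [e] at hj; exact (Option.some.inj hj).symm

/-- Coverage. -/
theorem sym_exists {k n : ℕ} (i : Bool) (hk : 2 ≤ k) (hn : n < 20 * k + 57) :
    ∃ l ∈ offs i, sym k (back k n l) = some (xor i (bit k n)) := by
  have h := okAt_all _ (fold2_lt hk hn) i
  simp only [okAt, Bool.and_eq_true, List.any_eq_true, decide_eq_true_eq] at h
  obtain ⟨l, hl, e⟩ := h.2
  exact ⟨l, hl, by rw [sym_back hk hn (offs_le hl)]; exact e⟩

/-- Some `20 k + 57` with `k ≥ 2` is prime to a given number. -/
theorem exists_coprime_modulus (x : ℕ) (hx : 0 < x) :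
    ∃ k, 2 ≤ k ∧ Nat.Coprime (20 * k + 57) x := by
  classical
  set S := x.primeFactors.filter (fun p => ¬ p ∣ 57) with hS
  refine ⟨2 * ∏ p ∈ S, p, ?_, Nat.coprime_of_dvd fun p hp h1 h2 => ?_⟩
  · have : 0 < ∏ p ∈ S, p := Finset.prod_pos fun p hp =>
      (Nat.prime_of_mem_primeFactors (Finset.mem_filter.1 hp).1).pos
    omega
  by_cases h57 : p ∣ 57
  · have hk : p ∣ 20 * (2 * ∏ q ∈ S, q) := (Nat.dvd_add_left h57).1 h1
    rcases hp.dvd_mul.1 hk with h | h
    · have hg : p ∣ Nat.gcd 20 57 := Nat.dvd_gcd h h57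
      norm_num at hg
      exact hp.ne_one hg
    rcases hp.dvd_mul.1 h with h | h
    · have hg : p ∣ Nat.gcd 2 57 := Nat.dvd_gcd h h57
      norm_num at hg
      exact hp.ne_one hg
    · obtain ⟨q, hq, hpq⟩ := (Prime.dvd_finsetProd_iff hp.prime _).1 h
      obtain ⟨hqx, hq57⟩ := Finset.mem_filter.1 hq
      exact hq57 ((Nat.prime_dvd_prime_iff_eq hp (Nat.prime_of_mem_primeFactors hqx)).1 hpq ▸ h57)
  · refine h57 ((Nat.dvd_add_right (Dvd.dvd.mul_left (Dvd.dvd.mul_left ?_ 2) 20)).1 h1)
    exact Finset.dvd_prod_of_mem _ (Finset.mem_filter.2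
      ⟨Nat.mem_primeFactors.2 ⟨hp, h2, hx.ne'⟩, h57⟩)

end Vale.Agent.P329.Runs
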